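import Vale.Agent.P275.R2.H894.Rows

/-!
# Row EG: the point count to second order
-/

namespace Vale.Agent.P275.R2.H870

open Filter Topology Vale.Agent.P275.H341 Vale.Agent.P275.R2.H894
open scoped BigOperators

theorem om_zero (Ψ : ℂ →* ℂ) (q : ℂ) (d e : ℕ) : om Ψ q d e 0 = 1 := by
  unfold om
  have h : Pt 0 = {fun i => i.elim0} := by
    ext f
    have hf : f = fun i => i.elim0 := Subsingleton.elim _ _
    subst hf
    simp only [Pt, Finset.Nat.antidiagonalTuple_zero_zero, Finset.mem_filter,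
      Finset.mem_singleton]
    constructor
    · intro _
      trivial
    · intro _
      exact ⟨Subsingleton.elim _ _, fun i => i.elim0⟩
  rw [h, Finset.sum_singleton]
  simp [hk]

theorem sum_mu {m : ℕ} (hm : 2 ≤ m) :
    ∑ d ∈ m.divisors, ((ArithmeticFunction.moebius d : ℤ) : ℂ) = 0 := by
  have h : ∑ d ∈ m.divisors, ArithmeticFunction.moebius d = 0 := by
    rw [← ArithmeticFunction.coe_mul_zeta_apply, ArithmeticFunction.moebius_mul_coe_zeta,
      ArithmeticFunction.one_apply_ne (by omega)]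
  exact_mod_cast congrArg (fun z : ℤ => (z : ℂ)) h

theorem rowEG (h1 : RowOM) (h2 : RowLD) : RowEG := by
  intro n m g hn hmn hm hg
  obtain ⟨K, hK⟩ := hmn
  have hm0 : 0 < m := by omega
  have hK0 : 1 ≤ K := by
    rcases Nat.eq_zero_or_pos K with h | h
    · rw [h] at hK; omega
    · exact h
  have hnm : n / m = K := by rw [hK, Nat.mul_div_cancel_left _ hm0]
  have hn0 : n ≠ 0 := by omega
  set β : ℕ → ℂ := fun d => if d = 1 then -(((2 * g - 2 : ℕ) : ℂ) * ((m / Nat.gcd m d : ℕ) : ℂ)) else 0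
    with hβ
  set F : ℕ → ℕ → ℂ := fun d q =>
    ld (om (powMonoidHom (2 * g - 2)) q d (m / Nat.gcd m d)) (n / Nat.lcm m d) with hF
  -- the expansion of one term
  have hterm : ∀ d ∈ n.divisors, Ex (F d) ((g - 1) * n * (n / Nat.lcm m d + 1))
      ((n / Nat.lcm m d : ℕ) : ℂ) (((n / Nat.lcm m d : ℕ) : ℂ) * β d) := by
    intro d hd
    have hdn : d ∣ n := Nat.dvd_of_mem_divisors hd
    have hd0 : 1 ≤ d := Nat.pos_of_mem_divisors hd
    have hgc : 0 < Nat.gcd m d := Nat.gcd_pos_of_pos_left _ hm0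
    have he : 1 ≤ m / Nat.gcd m d := Nat.div_pos (Nat.le_of_dvd hm0 (Nat.gcd_dvd_left m d)) hgc
    have hde : d * (m / Nat.gcd m d) = Nat.lcm m d := by
      rw [Nat.lcm, ← Nat.mul_div_assoc _ (Nat.gcd_dvd_left m d), mul_comm]
    have hl : Nat.lcm m d ∣ n := Nat.lcm_dvd (Dvd.intro K hK.symm) hdn
    have hl0 : 0 < Nat.lcm m d := Nat.lcm_pos hm0 hd0
    have hN : 1 ≤ n / Nat.lcm m d := Nat.div_pos (Nat.le_of_dvd (by omega) hl) hl0
    have hlN : Nat.lcm m d * (n / Nat.lcm m d) = n := Nat.mul_div_cancel' hl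
    have hA : ∀ k, Ex (fun q : ℕ => (fun (q k : ℕ) =>
        om (powMonoidHom (2 * g - 2)) (q : ℂ) d (m / Nat.gcd m d) k) q k)
        (d * (m / Nat.gcd m d) * (2 * g - 2) * (k * (k + 1) / 2)) 1 (if k = 0 then 0 else β d) := by
      intro k
      exact h1 d (m / Nat.gcd m d) g k hd0 he hg
    have hc : 2 ≤ d * (m / Nat.gcd m d) * (2 * g - 2) := by
      have h3 : 1 ≤ d * (m / Nat.gcd m d) := Nat.mul_pos hd0 he
      have h4 : 2 ≤ 2 * g - 2 := by omega
      calc 2 = 1 * 2 := by norm_num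
        _ ≤ _ := Nat.mul_le_mul h3 h4
    have h5 := h2 (fun (q k : ℕ) => om (powMonoidHom (2 * g - 2)) (q : ℂ) d (m / Nat.gcd m d) k)
      (d * (m / Nat.gcd m d) * (2 * g - 2)) (β d) hc (fun q => om_zero _ _ _ _) hA
      (n / Nat.lcm m d) hN
    have hexp : d * (m / Nat.gcd m d) * (2 * g - 2) *
        (n / Nat.lcm m d * (n / Nat.lcm m d + 1) / 2) = (g - 1) * n * (n / Nat.lcm m d + 1) := by
      obtain ⟨t, ht⟩ := (Nat.even_mul_succ_self (n / Nat.lcm m d)).two_dvd
      rw [hde, show n / Nat.lcm m d * (n / Nat.lcm m d + 1) = 2 * t from ht,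
        Nat.mul_div_cancel_left _ (by norm_num : 0 < 2)]
      obtain ⟨g', rfl⟩ : ∃ g', g = g' + 1 := ⟨g - 1, by omega⟩
      have e1 : 2 * (g' + 1) - 2 = 2 * g' := by omega
      rw [e1, Nat.add_sub_cancel]
      calc Nat.lcm m d * (2 * g') * t = g' * (Nat.lcm m d * (2 * t)) := by ring
        _ = g' * (Nat.lcm m d * (n / Nat.lcm m d * (n / Nat.lcm m d + 1))) := by rw [← ht]
        _ = g' * (Nat.lcm m d * (n / Nat.lcm m d) * (n / Nat.lcm m d + 1)) := by ring
        _ = g' * n * (n / Nat.lcm m d + 1) := by rw [hlN]; ring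
    rw [hexp] at h5
    exact h5
  -- all terms to the common exponent
  have hall : ∀ d ∈ n.divisors, Ex (fun q => ((ArithmeticFunction.moebius d : ℤ) : ℂ) * F d q)
      ((g - 1) * n * (K + 1))
      (if d ∣ m then ((ArithmeticFunction.moebius d : ℤ) : ℂ) * (K : ℂ) else 0)
      (if d ∣ m then ((ArithmeticFunction.moebius d : ℤ) : ℂ) * ((K : ℂ) * β d) else 0) := by
    intro d hd
    have h3 := (hterm d hd).const_mul ((ArithmeticFunction.moebius d : ℤ) : ℂ)
    by_cases hdm : d ∣ m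
    · rw [if_pos hdm, if_pos hdm]
      have hlc : Nat.lcm m d = m := Nat.lcm_eq_left hdm
      rw [hlc, hnm] at h3
      exact h3
    · rw [if_neg hdm, if_neg hdm]
      apply h3.low
      have hdn : d ∣ n := Nat.dvd_of_mem_divisors hd
      have hd0 : 1 ≤ d := Nat.pos_of_mem_divisors hd
      have hl : Nat.lcm m d ∣ n := Nat.lcm_dvd (Dvd.intro K hK.symm) hdn
      have hlN : Nat.lcm m d * (n / Nat.lcm m d) = n := Nat.mul_div_cancel' hl
      have hl0 : 0 < Nat.lcm m d := Nat.lcm_pos hm0 hd0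
      have hlt : m < Nat.lcm m d := by
        apply lt_of_le_of_ne (Nat.le_of_dvd hl0 (Nat.dvd_lcm_left m d))
        intro h
        apply hdm
        rw [h]
        exact Nat.dvd_lcm_right m d
      have hNK : n / Nat.lcm m d < K := by
        by_contra hcon
        rw [not_lt] at hcon
        have h4 : m * K < Nat.lcm m d * K := Nat.mul_lt_mul_of_pos_right hlt hK0
        have h5 : Nat.lcm m d * K ≤ Nat.lcm m d * (n / Nat.lcm m d) := Nat.mul_le_mul_left _ hcon
        rw [hlN] at h5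
        omega
      have hgn : 2 ≤ (g - 1) * n := by
        have h6 : m ≤ n := by rw [hK]; exact Nat.le_mul_of_pos_right m hK0
        calc 2 = 1 * 2 := by norm_num
          _ ≤ (g - 1) * n := Nat.mul_le_mul (by omega) (by omega)
      have h7 : (g - 1) * n * (n / Nat.lcm m d + 1) ≤ (g - 1) * n * K :=
        Nat.mul_le_mul_left _ hNK
      have h8 : (g - 1) * n * (K + 1) = (g - 1) * n * K + (g - 1) * n := by ring
      omega
  have hsum := Ex.sum n.divisors hall
  have hα : ∑ d ∈ n.divisors, (if d ∣ m then ((ArithmeticFunction.moebius d : ℤ) : ℂ) * (K : ℂ) else 0)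
      = 0 := by
    rw [← Finset.sum_filter, Nat.divisors_filter_dvd_of_dvd hn0 (Dvd.intro K hK.symm),
      ← Finset.sum_mul, sum_mu hm, zero_mul]
  have hγ : ∑ d ∈ n.divisors,
      (if d ∣ m then ((ArithmeticFunction.moebius d : ℤ) : ℂ) * ((K : ℂ) * β d) else 0)
      = -(((2 * g - 2 : ℕ) : ℂ) * (n : ℂ)) := by
    rw [Finset.sum_eq_single 1]
    · rw [if_pos (one_dvd m), hβ]
      simp only [if_true, Nat.gcd_one_right, Nat.div_one, ArithmeticFunction.moebius_apply_one,
        Int.cast_one, one_mul]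
      rw [hK]
      push_cast
      ring
    · intro d _ hd1
      rw [hβ]
      simp only [if_neg hd1, mul_zero, ite_self]
    · intro h
      exact absurd (Nat.one_mem_divisors.2 hn0) h
  rw [hα, hγ] at hsum
  have hfin := (Ex.qpow (n * (n - 1) * (g - 1))).mul (hsum.const_mul (1 / (n : ℂ)))
  have hexp : n * (n - 1) * (g - 1) + (g - 1) * n * (K + 1) = (g - 1) * (n * (n + n / m)) := by
    rw [hnm]
    obtain ⟨n', rfl⟩ : ∃ n', n = n' + 1 := ⟨n - 1, by omega⟩
    rw [Nat.add_sub_cancel]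
    ring
  have hnC : (n : ℂ) ≠ 0 := by exact_mod_cast hn0
  have ha : (1 : ℂ) * (1 / (n : ℂ) * 0) = 0 := by ring
  have hb : (0 : ℂ) * (1 / (n : ℂ) * 0) + 1 * (1 / (n : ℂ) * -(((2 * g - 2 : ℕ) : ℂ) * (n : ℂ))) =
      -((2 * g - 2 : ℕ) : ℂ) := by
    field_simp
    ring
  rw [hexp, ha, hb] at hfin
  apply hfin.congr
  intro q
  rfl

end Vale.Agent.P275.R2.H870
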